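import Vale.Agent.P284Z.L.Defs
import Vale.Agent.P284.H213.KL.SK1
import Vale.Agent.P272.K.EST.Local

/-!
# P284Z, block L, piece 6b: local calculus
-/

set_option linter.all false

open scoped ContDiff Topology ComplexOrder ComplexConjugate InnerProductSpace
open Filter Set Function Metric

noncomputable section

namespace Vale.Agent.P284Z.L.S6b

open Vale.Agent.P272.K J Vale.Agent.P284.H213.KL

variable {n q : ℕ} {H : Type} [NormedAddCommGroup H] [InnerProductSpace ℂ H] [CompleteSpace H]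
  {z : Cm n} {g : Cm n → H} {f : Cm n → ℝ}

theorem two (h : ContDiffAt ℝ ∞ f z) : ContDiffAt ℝ 2 f z := h.of_le (by norm_cast)

theorem quad_lev (f : Cm n → ℝ) (z β : Cm n) : (quad (cHess f z) β).re = lev f z β := by
  unfold quad lev
  congr 1
  refine Finset.sum_congr rfl fun j _ => Finset.sum_congr rfl fun k _ => ?_
  rw [mul_assoc]

theorem sq_pos' {x : H} (h : x ≠ 0) : 0 < ‖x‖ ^ 2 := pow_pos (norm_pos_iff.2 h) 2

theorem sm_log (hg : AnalyticAt ℂ g z) (h0 : g z ≠ 0) :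
    ContDiffAt ℝ ∞ (fun y => Real.log (‖g y‖ ^ 2)) z :=
  (contDiffAt_normSq hg).log (sq_pos' h0).ne'

theorem quad_log (hg : AnalyticAt ℂ g z) (h0 : g z ≠ 0) (β : Cm n) :
    (quad (cHess (fun y => Real.log (‖g y‖ ^ 2)) z) β).re = ((‖g z‖ ^ 2) ^ 2)⁻¹ *
      ((‖g z‖ * ‖fderiv ℂ g z β‖) ^ 2 - ‖⟪g z, fderiv ℂ g z β⟫_ℂ‖ ^ 2) := by
  have hp := sq_pos' h0
  rw [quad_lev, lev_log (two (contDiffAt_normSq hg)) hp, lev_normSq hg, dd_normSq hg, mul_pow]
  generalize ‖g z‖ ^ 2 = x at hp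
  field_simp

theorem fs_psd (hg : AnalyticAt ℂ g z) (h0 : g z ≠ 0) :
    (cHess (fun y => Real.log (‖g y‖ ^ 2)) z).PosSemidef := by
  refine posSemidef_of_quad (C2.cHess_isHermitian (two (sm_log hg h0))) fun β => ?_
  rw [quad_log hg h0]
  exact mul_nonneg (by positivity)
    (sub_nonneg.2 (pow_le_pow_left₀ (norm_nonneg _) (norm_inner_le_norm _ _) 2))

theorem fs_pd (hg : AnalyticAt ℂ g z) (h0 : g z ≠ 0)
    (hi : ∀ (β : Cm n) (c : ℂ), fderiv ℂ g z β = c • g z → β = 0) :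
    (cHess (fun y => Real.log (‖g y‖ ^ 2)) z).PosDef := by
  refine posDef_of_quad (C2.cHess_isHermitian (two (sm_log hg h0))) fun β hβ => ?_
  have hp := sq_pos' h0
  have h1 : fderiv ℂ g z β ≠ 0 := fun h => hβ (hi β 0 (by rw [h, zero_smul]))
  rw [quad_log hg h0]
  refine mul_pos (by positivity) (sub_pos.2 (pow_lt_pow_left₀ (lt_of_le_of_ne
    (norm_inner_le_norm _ _) fun h => ?_) (norm_nonneg _) two_ne_zero))
  obtain ⟨r, -, hr⟩ := (norm_inner_eq_norm_iff h0 h1).1 h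
  exact hβ (hi β r hr)

theorem sm_log1 (hf : ContDiffAt ℝ ∞ f z) (h0 : 0 ≤ f z) :
    ContDiffAt ℝ ∞ (fun y => Real.log (1 + f y)) z :=
  (contDiffAt_const.add hf).log (by linarith)

theorem psd_log1 (hf : ContDiffAt ℝ ∞ f z) (h0 : 0 < f z)
    (h : (cHess (fun y => Real.log (f y)) z).PosSemidef) :
    (cHess (fun y => Real.log (1 + f y)) z).PosSemidef := by
  refine posSemidef_of_quad (C2.cHess_isHermitian (two (sm_log1 hf h0.le))) fun β => ?_
  have h1 := quad_nonneg h β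
  have h2 := lev_comp (ψ := fun s => Real.log (1 + s)) (ψ₁ := fun s => (1 + s)⁻¹)
    (ψ₂ := -((1 + f z) ^ 2)⁻¹) (u := f) (z := z) (by
      filter_upwards [lt_mem_nhds h0] with s hs
      simpa using ((hasDerivAt_id' s).const_add 1).log (add_pos one_pos hs).ne')
    (by simpa [neg_div] using
      ((hasDerivAt_id' (f z)).const_add 1).fun_inv (add_pos one_pos h0).ne')
    (two hf) β
  rw [quad_lev, lev_log (two hf) h0] at h1
  rw [quad_lev, h2]
  generalize f z = x at h0 h1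
  generalize lev f z β = a at h1
  have hb : 0 ≤ ‖P284.H213.KL.dd f z β‖ ^ 2 := by positivity
  generalize ‖P284.H213.KL.dd f z β‖ ^ 2 = b at h1 hb
  have h3 : b ≤ x * a := by
    have := mul_nonneg (sq_nonneg x) h1
    field_simp at this
    linarith
  have h4 : 0 ≤ a := by nlinarith
  have h5 : (1 + x)⁻¹ * a + -((1 + x) ^ 2)⁻¹ * b = ((1 + x) ^ 2)⁻¹ * (a + (x * a - b)) := by
    field_simp
    ring
  rw [h5]
  exact mul_nonneg (by positivity) (by linarith)

theorem pb_psd (S : Matrix (Fin q) (Fin n) ℂ) {X : Mx q} (h : X.PosSemidef) :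
    (pb S X).PosSemidef := h.mul_mul_conjTranspose_same S.transpose

theorem pb_lin (S : Matrix (Fin q) (Fin n) ℂ) (c : ℂ) (X Y Z : Mx q) :
    pb S (c • X - (Y + Z)) = c • pb S X - pb S Y - pb S Z := by
  simp only [pb, Matrix.mul_sub, Matrix.sub_mul, Matrix.mul_add, Matrix.add_mul, Matrix.mul_smul,
    Matrix.smul_mul, sub_sub]

theorem dd_cont {b : Cm n → Cm q} (hb : AnalyticAt ℂ b z) (ξ : Fin q → Cm n) :
    ContinuousAt (fun w => L.dd b w ξ) z :=
  (continuous_id.matrix_det (R := ℂ)).continuousAt.comp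
    (f := fun w => Matrix.of fun i j => fderiv ℂ b w (ξ j) i)
    (continuousAt_pi.2 fun i => continuousAt_pi.2 fun j => (continuous_apply i).continuousAt.comp
      (hb.fderiv.continuousAt.clm_apply continuousAt_const))

/-- the Fubini-Study form dominates on a compact set -/
theorem dominate {K : Set (Cm q)} (hK : IsCompact K) {γ : Cm q → H} {u : Cm q → ℝ}
    (l₀ : H →L[ℂ] ℂ) (l : H →L[ℂ] Cm q)
    (h : ∀ t ∈ K, AnalyticAt ℂ γ t ∧ ContDiffAt ℝ ∞ u t ∧
      ∀ᶠ w in 𝓝 t, l₀ (γ w) = 1 ∧ l (γ w) = w) :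
    ∃ M : ℝ, 0 ≤ M ∧ ∀ t ∈ K, γ t ≠ 0 ∧ ((M : ℂ) • cHess (fun y => Real.log (‖γ y‖ ^ 2)) t -
      (cHess u t + 1)).PosSemidef := by
  have h0 : ∀ t ∈ K, γ t ≠ 0 := fun t ht e => by
    simpa [e] using (h t ht).2.2.self_of_nhds.1
  have h1 : ∀ t ∈ K, (cHess (fun y => Real.log (‖γ y‖ ^ 2)) t).PosDef := fun t ht => by
    obtain ⟨a1, -, a3⟩ := h t ht
    refine fs_pd a1 (h0 t ht) fun β c e => ?_
    have d := a1.differentiableAt.hasFDerivAt
    have e1 := ((l₀.hasFDerivAt.comp t d).congr_of_eventuallyEq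
      (a3.mono fun w hw => hw.1.symm)).unique (hasFDerivAt_const 1 t)
    have e2 := ((l.hasFDerivAt.comp t d).congr_of_eventuallyEq
      (a3.mono fun w hw => hw.2.symm)).unique (hasFDerivAt_id t)
    have e3 : l₀ (fderiv ℂ γ t β) = 0 := congrArg (fun A : Cm q →L[ℂ] ℂ => A β) e1
    have e4 : l (fderiv ℂ γ t β) = β := congrArg (fun A : Cm q →L[ℂ] Cm q => A β) e2
    rw [e, map_smul, a3.self_of_nhds.1, smul_eq_mul, mul_one] at e3
    rw [← e4, e, e3, zero_smul, map_zero]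
  obtain ⟨M, hM, h2⟩ := exists_quad_lower hK _ (fun t => cHess u t + 1)
    (fun i j t ht => (C2.contDiffAt_cHess (m := 0) (sm_log (h t ht).1 (h0 t ht)) (by norm_cast)
      i j).continuousAt.continuousWithinAt)
    (fun i j t ht => ((C2.contDiffAt_cHess (m := 0) (h t ht).2.1 (by norm_cast)
      i j).continuousAt.add continuousAt_const).continuousWithinAt) h1
  refine ⟨M, hM.le, fun t ht => ⟨h0 t ht, ?_⟩⟩
  have := (EST.posSemidef_smul_sub_iff (a := M) (b := 1) (h1 t ht).isHermitian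
    ((C2.cHess_isHermitian (two (h t ht).2.1)).add Matrix.isHermitian_one)).2 fun ξ => by
      simpa only [one_mul] using h2 t ht ξ
  rwa [Complex.ofReal_one, one_smul] at this

end Vale.Agent.P284Z.L.S6b
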